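import Vale.Agent.P204.Full.Common.Linear
import Vale.Agent.P204.Full.Contract

/-!
# P204 Obstruction: continuous invariant fields, the closed ones, and the order unit
-/

open scoped Manifold ContDiff Topology
open Set Filter MeasureTheory

noncomputable section

namespace Vale.Agent.P204.Full.Obstruction

universe u

section Closed

variable {X : Type u} [TopologicalSpace X] [ChartedSpace R4 X]

lemma d2At_add {θ η : R4 → Bil} {y : R4} (hθ : DifferentiableAt ℝ θ y)
    (hη : DifferentiableAt ℝ η y) (u v w : R4) :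
    d2At (θ + η) y u v w = d2At θ y u v w + d2At η y u v w := by
  simp only [d2At, fderiv_add hθ hη, add_apply]
  ring

lemma d2At_smul (a : ℝ) {θ : R4 → Bil} {y : R4} (hθ : DifferentiableAt ℝ θ y) (u v w : R4) :
    d2At (a • θ) y u v w = a * d2At θ y u v w := by
  simp only [d2At, fderiv_const_smul hθ, smul_apply, smul_eq_mul]
  ring

lemma diffAt_view2 {θ : X → Bil} (h : Smooth2 θ) (x₀ : X) {y : R4}
    (hy : y ∈ (chartAt R4 x₀).target) : DifferentiableAt ℝ (view2 (chartAt R4 x₀) θ) y :=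
  ((h.2 x₀).contDiffAt ((chartAt R4 x₀).open_target.mem_nhds hy)).differentiableAt (by simp)

lemma closed2_zero : Closed2 (0 : X → Bil) :=
  ⟨Smooth2.zero, fun x₀ y _ u v w => by simp [view2_zero, d2At]⟩

lemma closed2_add {θ η : X → Bil} (h : Closed2 θ) (k : Closed2 η) : Closed2 (θ + η) :=
  ⟨h.1.add k.1, fun x₀ y hy u v w => by
    rw [view2_add, d2At_add (diffAt_view2 h.1 x₀ hy) (diffAt_view2 k.1 x₀ hy), h.2 x₀ y hy,
      k.2 x₀ y hy, add_zero]⟩

lemma closed2_smul {θ : X → Bil} (h : Closed2 θ) (a : ℝ) : Closed2 (a • θ) :=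
  ⟨h.1.smul a, fun x₀ y hy u v w => by
    rw [view2_smul, d2At_smul a (diffAt_view2 h.1 x₀ hy), h.2 x₀ y hy, mul_zero]⟩

lemma cont2_fun_smul {f : X → ℝ} (hf : Continuous f) {θ : X → Bil} (h : Cont2 θ) :
    Cont2 (fun x => f x • θ x) :=
  ⟨fun x => (h.1 x).smul _, fun x₀ => by
    have h1 : ContinuousOn (fun y => f ((chartAt R4 x₀).symm y)) (chartAt R4 x₀).target :=
      hf.comp_continuousOn (chartAt R4 x₀).continuousOn_symm
    exact ContinuousOn.smul (M := ℝ) (X := Bil) h1 (h.2 x₀)⟩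

end Closed

variable {X : Type u} [TopologicalSpace X] [ChartedSpace R4 X] [IsManifold 𝓘(ℝ, R4) ∞ X]
  (G : Geo X)

lemma inv_zero : G.Inv (0 : X → Bil) := fun x u v => by simp

lemma inv_add {θ η : X → Bil} (h : G.Inv θ) (k : G.Inv η) : G.Inv (θ + η) := fun x u v => by
  simp [h x u v, k x u v]

lemma inv_smul {θ : X → Bil} (h : G.Inv θ) (a : ℝ) : G.Inv (a • θ) := fun x u v => by
  simp [h x u v]

/-- Continuous invariant two-forms. -/
def invFields : Submodule ℝ (X → Bil) where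
  carrier := {θ | Cont2 θ ∧ G.Inv θ}
  zero_mem' := ⟨⟨Smooth2.zero.1, fun x₀ => (Smooth2.zero.2 x₀).continuousOn⟩, inv_zero G⟩
  add_mem' h k := ⟨h.1.add k.1, inv_add G h.2 k.2⟩
  smul_mem' a _ h := ⟨h.1.smul a, inv_smul G h.2 a⟩

lemma mem_invFields {θ : X → Bil} : θ ∈ invFields G ↔ Cont2 θ ∧ G.Inv θ := Iff.rfl

/-- `ω`, as a continuous invariant field. -/
def omegaField : invFields G :=
  ⟨G.omega, ⟨G.omega_smooth.1, fun x₀ => (G.omega_smooth.2 x₀).continuousOn⟩, G.omega_inv⟩

/-- The semipositive fields. -/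
def posCone : PointedCone ℝ (invFields G) where
  carrier := {θ | G.SemiPos θ.1}
  zero_mem' x v := by simp
  add_mem' {θ η} h k x v := by
    have := add_nonneg (h x v) (k x v)
    simpa using this
  smul_mem' a θ h x v := show 0 ≤ (a : ℝ) * θ.1 x v (G.J x v) from mul_nonneg a.2 (h x v)

/-- The closed invariant forms, inside the continuous invariant fields. -/
def closedInv : Submodule ℝ (invFields G) where
  carrier := {θ | Closed2 θ.1}
  zero_mem' := closed2_zero
  add_mem' h k := closed2_add h k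
  smul_mem' a _ h := closed2_smul h a

lemma metric_apply (x : X) (v : R4) : G.metric x v v = G.omega x v (G.J x v) := rfl

lemma omega_nonneg (x : X) (v : R4) : 0 ≤ G.omega x v (G.J x v) := by
  rcases eq_or_ne v 0 with h | h
  · simp [h]
  · exact (G.omega_pos x v h).le

variable [MeasurableSpace X]

/-- Invariant fields are bounded by `ω`, linearly in their norm. -/
lemma exists_bound (hP : PointFacts G) (hB : BaseFacts G) : ∃ C : ℝ, ∀ θ : X → Bil, Cont2 θ →
    ∀ M : ℝ, (∀ x, G.nrm2 θ x ≤ M) →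
      ∀ x v, |G.p11 θ x v (G.J x v)| ≤ C * M * G.omega x v (G.J x v) := by
  obtain ⟨C₁, h1⟩ := hP.inv_le
  obtain ⟨C₂, h2⟩ := hP.pi_bound
  refine ⟨|C₁| * |C₂|, fun θ hθ M hM x v => ?_⟩
  have hn : ∀ b, 0 ≤ G.nrmVal x b := fun b => by
    unfold Geo.nrmVal Geo.nrm2
    exact Finset.sum_nonneg fun i _ => mul_nonneg (hB.rho_nonneg i x) (norm_nonneg _)
  have hM' : G.nrmVal x (θ x) ≤ M := by
    rw [← G.nrm2_eq_nrmVal θ x fun i hi => (hB.rho_supp i x hi).1]
    exact hM x
  have h3 : G.nrmVal x (inv11 (G.J x) (θ x)) ≤ |C₂| * M :=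
    ((h2 x _ (hθ.1 x)).1.trans (mul_le_mul_of_nonneg_right (le_abs_self _) (hn _))).trans
      (mul_le_mul_of_nonneg_left hM' (abs_nonneg _))
  rw [← metric_apply]
  refine (h1 x _ (hP.inv11_at x _ (hθ.1 x)) v).trans ?_
  rw [metric_apply, mul_assoc |C₁|]
  exact mul_le_mul_of_nonneg_right ((mul_le_mul_of_nonneg_right (le_abs_self _) (hn _)).trans
    (mul_le_mul_of_nonneg_left h3 (abs_nonneg _))) (omega_nonneg G x v)

end Vale.Agent.P204.Full.Obstruction
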