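import Vale.Agent.P204.Full.Obstruction.Invariant
import Vale.Agent.P204.Full.Interfaces

/-!
# P204 Obstruction: a positive current killing the closed invariant forms, by Hahn-Banach
-/

open scoped Manifold ContDiff Topology
open Set Filter MeasureTheory CompactlySupported

noncomputable section

namespace Vale.Agent.P204.Full.Obstruction

universe u

variable {X : Type u} [TopologicalSpace X] [T2Space X] [CompactSpace X] [ChartedSpace R4 X]
  [IsManifold 𝓘(ℝ, R4) ∞ X] [MeasurableSpace X] [BorelSpace X] (G : Geo X)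

omit [T2Space X] [BorelSpace X] in
/-- A functional on all fields, positive on semipositive ones, killing the closed invariant ones. -/
lemma exists_functional (hP : PointFacts G) (hB : BaseFacts G)
    (hno : ¬ ∃ θ, Closed2 θ ∧ G.Inv θ ∧ ∀ (x : X) (v : R4), v ≠ 0 → 0 < θ x v (G.J x v)) :
    ∃ L : (X → Bil) →ₗ[ℝ] ℝ, L G.omega = 1 ∧
      (∀ θ, Cont2 θ → G.Inv θ → G.SemiPos θ → 0 ≤ L θ) ∧
      ∀ θ, Closed2 θ → G.Inv θ → L θ = 0 := by
  set w := omegaField G with hw
  set Z : ↥(invFields G) →ₗ.[ℝ] ℝ := ⟨closedInv G, 0⟩ with hZ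
  have hwn : w ∉ Z.domain := fun h => hno ⟨G.omega, h, G.omega_inv, G.omega_pos⟩
  set f := Z.supSpanSingleton w 1 hwn with hf
  have hwdom : ∀ z ∈ closedInv G, ∀ t : ℝ, z + t • w ∈ f.domain := fun z hz t =>
    Submodule.add_mem_sup hz (Submodule.smul_mem _ _ (Submodule.mem_span_singleton_self w))
  have hval : ∀ z (hz : z ∈ closedInv G) (t : ℝ), f ⟨z + t • w, hwdom z hz t⟩ = t := fun z hz t => by
    exact (LinearPMap.supSpanSingleton_apply_mk Z w 1 hwn z hz t).trans
      (show (0 : ℝ) + t • (1 : ℝ) = t by simp)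
  have nonneg : ∀ x : f.domain, (x : ↥(invFields G)) ∈ posCone G → 0 ≤ f x := by
    rintro ⟨x, hx⟩ hpos
    obtain ⟨z, hz, q, hq, rfl⟩ := Submodule.mem_sup.1 hx
    obtain ⟨t, rfl⟩ := Submodule.mem_span_singleton.1 hq
    rw [hval z hz t]
    by_contra! ht
    refine hno ⟨z.1, hz, z.2.2, fun x v hv => ?_⟩
    have h1 : 0 ≤ z.1 x v (G.J x v) + t * G.omega x v (G.J x v) := hpos x v
    nlinarith [G.omega_pos x v hv]
  have dense : ∀ y, ∃ x : f.domain, (x : ↥(invFields G)) + y ∈ posCone G := by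
    intro y
    obtain ⟨C, hC⟩ := exists_bound G hP hB
    obtain ⟨M, hM⟩ := isCompact_univ.bddAbove_image
      (hB.nrm2_cont y.1 y.2.1).continuousOn
    refine ⟨⟨0 + (C * M) • w, hwdom 0 (zero_mem _) _⟩, fun x v => ?_⟩
    have h := hC y.1 y.2.1 M (fun z => hM ⟨z, mem_univ z, rfl⟩) x v
    rw [G.p11_of_inv y.2.2] at h
    show 0 ≤ (0 + C * M * G.omega x v (G.J x v)) + y.1 x v (G.J x v)
    linarith [neg_abs_le (y.1 x v (G.J x v))]
  obtain ⟨g, hgf, hgpos⟩ := riesz_extension (posCone G) f nonneg dense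
  obtain ⟨L, hL⟩ := g.exists_extend
  have hLg : ∀ y : ↥(invFields G), L y.1 = g y := fun y => LinearMap.congr_fun hL y
  refine ⟨L, ?_, fun θ hc hi hs => ?_, fun θ hcl hi => ?_⟩
  · have e := hgf ⟨0 + (1 : ℝ) • w, hwdom 0 (zero_mem _) 1⟩
    rw [hval 0 (zero_mem _) 1] at e
    rw [show G.omega = w.1 from rfl, hLg, ← e]
    simp
  · rw [hLg ⟨θ, hc, hi⟩]
    exact hgpos _ hs
  · let y : ↥(invFields G) := ⟨θ, hB.smooth_cont θ hcl.1, hi⟩
    have hy : y ∈ closedInv G := hcl
    have e := hgf ⟨y + (0 : ℝ) • w, hwdom y hy 0⟩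
    rw [hval y hy 0] at e
    rw [show θ = y.1 from rfl, hLg]
    simpa using e

/-- A positive functional gives a positive current. -/
lemma exists_cur (L : (X → Bil) →ₗ[ℝ] ℝ) (hω : L G.omega = 1) (hB : BaseFacts G)
    (hpos : ∀ θ, Cont2 θ → G.Inv θ → G.SemiPos θ → 0 ≤ L θ) :
    ∃ D : PosCur G, (∀ θ, D.P θ = L (G.p11 θ)) ∧ D.mu univ ≠ 0 := by
  have hcω : Cont2 G.omega := hB.smooth_cont _ G.omega_smooth
  have hinv : ∀ f : X → ℝ, G.Inv fun x => f x • G.omega x := fun f x u v => by
    simp [G.omega_inv x u v]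
  let Lf : C_c(X, ℝ) →ₗ[ℝ] ℝ :=
    { toFun := fun f => L fun x => f x • G.omega x
      map_add' := fun f g => by
        rw [← map_add]; congr 1; funext x; exact add_smul (f x) (g x) (G.omega x)
      map_smul' := fun a f => by
        rw [RingHom.id_apply, ← map_smul]; congr 1; funext x; exact mul_smul a (f x) (G.omega x) }
  have hLf : ∀ f : C_c(X, ℝ), 0 ≤ f → 0 ≤ Lf f := fun f hf =>
    hpos _ (cont2_fun_smul f.continuous hcω) (hinv f) fun x v => by
      show 0 ≤ f x * G.omega x v (G.J x v)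
      exact mul_nonneg (hf x) (omega_nonneg G x v)
  let Λ : C_c(X, ℝ) →ₚ[ℝ] ℝ := PositiveLinearMap.mk₀ Lf hLf
  let P : (X → Bil) →ₗ[ℝ] ℝ :=
    { toFun := fun θ => L (G.p11 θ)
      map_add' := fun θ η => by rw [G.p11_add, map_add]
      map_smul' := fun a θ => by rw [G.p11_smul, map_smul, RingHom.id_apply] }
  have hPω : ∀ f : X → ℝ, Continuous f →
      P (fun x => f x • G.omega x) = ∫ x, f x ∂(RealRMK.rieszMeasure Λ) := fun f hf => by
    have h := RealRMK.integral_rieszMeasure Λ ⟨⟨f, hf⟩, HasCompactSupport.of_compactSpace _⟩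
    show L (G.p11 _) = _
    rw [G.p11_of_inv (hinv f)]
    exact h.symm
  refine ⟨{ mu := RealRMK.rieszMeasure Λ
            finite_mu := inferInstance
            P := P
            P_omega := hPω
            P_anti := fun θ _ hθ => ?_
            P_nonneg := fun θ hc hi hs => ?_ }, fun θ => rfl, fun h0 => ?_⟩
  · show L (G.p11 θ) = 0
    rw [show G.p11 θ = 0 from funext fun x => inv11_of_anti (G.J x) (G.anti_pull hθ x), map_zero]
  · show 0 ≤ L (G.p11 θ)
    rw [G.p11_of_inv hi]
    exact hpos θ hc hi hs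
  · have h := hPω (fun _ => 1) continuous_const
    have h0' : RealRMK.rieszMeasure Λ univ = 0 := h0
    rw [Measure.measure_univ_eq_zero.1 h0', integral_zero_measure] at h
    change L (G.p11 fun x => (1 : ℝ) • G.omega x) = 0 at h
    simp only [one_smul] at h
    rw [G.p11_of_inv G.omega_inv, hω] at h
    exact one_ne_zero h

/-- Without a compatible form there is a nonzero pair. -/
theorem obstruction_of (hPoint : PointStatement.{u}) (hBase : BaseStatement.{u}) :
    ObstructionStatement.{u} := by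
  intro X _ _ _ _ _ _ _ G hno hT
  have hP := hPoint X G
  have hB := hBase X G
  obtain ⟨T, hT1, N, C, hTb⟩ := hT
  obtain ⟨L, hω, hpos, hkill⟩ := exists_functional G hP hB hno
  obtain ⟨D, hD, hmass⟩ := exists_cur G L hω hB hpos
  obtain ⟨C₀, hC₀⟩ := exists_bound G hP hB
  refine ⟨{ toPosCur := D, Q := -(D.P.comp T), Q_bound := ⟨N, C₀ * C, fun b hb ha => ?_⟩,
            kills := fun θ hθ => ?_ }, hmass⟩
  · have hcl := (hT1 b hb ha).1
    have hcont : Cont2 (T b) := hB.smooth_cont _ hcl.1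
    set M := C₀ * (C * G.hsum N b) with hM
    have hbound := hC₀ (T b) hcont _ (hTb b hb ha)
    have hcω : Cont2 G.omega := hB.smooth_cont _ G.omega_smooth
    have hp := hB.p11_smooth (T b) hcl.1
    have hplus := hpos (M • G.omega + G.p11 (T b)) ((hcω.smul M).add (hB.smooth_cont _ hp.1))
      (inv_add G (inv_smul G G.omega_inv M) hp.2) fun x v => by
        show 0 ≤ M * G.omega x v (G.J x v) + G.p11 (T b) x v (G.J x v)
        linarith [neg_abs_le (G.p11 (T b) x v (G.J x v)), hbound x v]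
    have hminus := hpos (M • G.omega + (-1 : ℝ) • G.p11 (T b))
      ((hcω.smul M).add ((hB.smooth_cont _ hp.1).smul _))
      (inv_add G (inv_smul G G.omega_inv M) (inv_smul G hp.2 _)) fun x v => by
        show 0 ≤ M * G.omega x v (G.J x v) + (-1) * G.p11 (T b) x v (G.J x v)
        linarith [le_abs_self (G.p11 (T b) x v (G.J x v)), hbound x v]
    simp only [map_add, map_smul, hω, smul_eq_mul, mul_one] at hplus hminus
    show |-(D.P (T b))| ≤ _
    rw [abs_neg, hD, abs_le, mul_assoc, ← hM]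
    constructor <;> linarith
  · obtain ⟨hsm, hanti⟩ := hB.p20_smooth θ hθ.1
    obtain ⟨hTc, hTp⟩ := hT1 _ hsm hanti
    set η := θ + (-1 : ℝ) • T (G.p20 θ) with hη
    have hcl : Closed2 η := closed2_add hθ (closed2_smul hTc _)
    have h20 : G.p20 η = 0 := by
      rw [hη, G.p20_add, G.p20_smul, hTp, neg_one_smul, add_neg_cancel]
    have h11 : G.p11 η = η := by
      conv_rhs => rw [← G.p11_add_p20 η, h20, add_zero]
    have hη0 : D.P η = 0 := by
      rw [hD, h11]
      exact hkill η hcl (h11 ▸ (hB.p11_smooth η hcl.1).2)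
    show D.P θ + -(D.P (T (G.p20 θ))) = 0
    rw [hη, map_add, map_smul, smul_eq_mul, neg_one_mul] at hη0
    exact hη0

end Vale.Agent.P204.Full.Obstruction
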